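import Mathlib

/-! Definitions for the classical capacity of the generalized amplitude-damping channel. -/

namespace Vale.Agent.P358

open scoped ComplexOrder

/-- von Neumann entropy in bits: `- ∑ λ log₂ λ` over the eigenvalues (with multiplicity)
of a Hermitian matrix. -/
noncomputable def vnEntropy {n : Type} [Fintype n] [DecidableEq n] (ρ : Matrix n n ℂ) : ℝ :=
  open Classical in
  if h : ρ.IsHermitian then (∑ i, Real.negMulLog (h.eigenvalues i)) / Real.log 2 else 0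

/-- Density matrices: positive semidefinite with trace one. -/
def IsState {n : Type} [Fintype n] (ρ : Matrix n n ℂ) : Prop :=
  ρ.PosSemidef ∧ ρ.trace = 1

/-- The Holevo quantities of all finite ensembles of input states. -/
def holevoValues {a b : Type} [Fintype a] [Fintype b] [DecidableEq b]
    (N : Matrix a a ℂ → Matrix b b ℂ) : Set ℝ :=
  {x | ∃ (k : ℕ) (q : Fin k → ℝ) (ρ : Fin k → Matrix a a ℂ),
    (∀ i, 0 ≤ q i) ∧ ∑ i, q i = 1 ∧ (∀ i, IsState (ρ i)) ∧
      x = vnEntropy (∑ i, (q i : ℂ) • N (ρ i)) - ∑ i, q i * vnEntropy (N (ρ i))}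

/-- The Holevo capacity `χ(N)`. -/
noncomputable def holevo {a b : Type} [Fintype a] [Fintype b] [DecidableEq b]
    (N : Matrix a a ℂ → Matrix b b ℂ) : ℝ :=
  sSup (holevoValues N)

/-- The tensor power `N^{⊗ n}` of a linear map on matrices, written in matrix units:
it sends `E_{k₁ l₁} ⊗ ⋯ ⊗ E_{kₙ lₙ}` to `N(E_{k₁ l₁}) ⊗ ⋯ ⊗ N(E_{kₙ lₙ})`. -/
noncomputable def tensorPow {a b : Type} [Fintype a] [DecidableEq a]
    (N : Matrix a a ℂ → Matrix b b ℂ) (n : ℕ) (ρ : Matrix (Fin n → a) (Fin n → a) ℂ) :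
    Matrix (Fin n → b) (Fin n → b) ℂ :=
  fun i j => ∑ k : Fin n → a, ∑ l : Fin n → a,
    (∏ m, N (Matrix.single (k m) (l m) 1) (i m) (j m)) * ρ k l

/-- The tensor product `N ⊗ M` of two linear maps on matrices, written in matrix units. -/
noncomputable def tensorMap {a b c d : Type} [Fintype a] [DecidableEq a] [Fintype c]
    [DecidableEq c] (N : Matrix a a ℂ → Matrix b b ℂ) (M : Matrix c c ℂ → Matrix d d ℂ)
    (ρ : Matrix (a × c) (a × c) ℂ) : Matrix (b × d) (b × d) ℂ :=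
  fun i j => ∑ k : a × c, ∑ l : a × c,
    N (Matrix.single k.1 l.1 1) i.1 j.1 * M (Matrix.single k.2 l.2 1) i.2 j.2 * ρ k l

/-- The unassisted classical capacity `C(N) = sup_{n ≥ 1} χ(N^{⊗ n}) / n`. -/
noncomputable def capacity {a b : Type} [Fintype a] [DecidableEq a] [Fintype b] [DecidableEq b]
    (N : Matrix a a ℂ → Matrix b b ℂ) : ℝ :=
  sSup {x | ∃ n : ℕ, 1 ≤ n ∧ x = holevo (tensorPow N n) / n}

/-- Quantum channels between finite-dimensional systems, in Kraus form. -/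
def IsChannel {c d : Type} [Fintype c] [DecidableEq c] [Fintype d]
    (M : Matrix c c ℂ → Matrix d d ℂ) : Prop :=
  ∃ (r : ℕ) (K : Fin r → Matrix d c ℂ), ∑ e, (K e).conjTranspose * K e = 1 ∧
    ∀ X, M X = ∑ e, K e * X * (K e).conjTranspose

/-- The generalized amplitude-damping channel, extended linearly to all `2 × 2` matrices.
On a density matrix `!![1 - q, z; conj z, q]` it gives
`!![1 - t, √(1-γ) z; √(1-γ) conj z, t]` with `t = (1-γ) q + γ ν`. -/
noncomputable def gadc (γ ν : ℝ) (X : Matrix (Fin 2) (Fin 2) ℂ) : Matrix (Fin 2) (Fin 2) ℂ :=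
  !![((1 - γ * ν : ℝ) : ℂ) * X 0 0 + ((γ * (1 - ν) : ℝ) : ℂ) * X 1 1,
      ((√(1 - γ) : ℝ) : ℂ) * X 0 1;
    ((√(1 - γ) : ℝ) : ℂ) * X 1 0,
      ((γ * ν : ℝ) : ℂ) * X 0 0 + ((1 - γ * (1 - ν) : ℝ) : ℂ) * X 1 1]

/-- Binary entropy in bits. -/
noncomputable def h2 (p : ℝ) : ℝ := Real.binEntropy p / Real.log 2

/-- The one-parameter function whose maximum over `q ∈ [0,1]` is the capacity:
`h₂(t) - h₂((1 + √((1-2t)² + 4(1-γ)q(1-q)))/2)` with `t = (1-γ) q + γ ν`. -/
noncomputable def capFun (γ ν q : ℝ) : ℝ :=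
  h2 ((1 - γ) * q + γ * ν) -
    h2 ((1 + √((1 - 2 * ((1 - γ) * q + γ * ν)) ^ 2 + 4 * (1 - γ) * q * (1 - q))) / 2)

end Vale.Agent.P358
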